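import Vale.Agent.P113.Defs
import Vale.Agent.P113.Main

open Vale.Agent.P113

/-- Halting detection by a particle trajectory of a forced Navier-Stokes flow from rest on the
flat three-torus, for every computable viscosity. -/
theorem Vale.Agent.Results.P113.HaltingNS.result :
    ∀ ν : ℝ, 0 < ν → ComputableReal ν →
    ∃ (a : Space) (O : Set Torus) (compile : Machine × List ℕ → Nat.Partrec.Code)
      (f : Machine → List ℕ → ℝ → Space → Space) (T₀ P : ℝ),
      IsOpen O ∧ Computable compile ∧ 0 ≤ T₀ ∧ 0 < P ∧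
      ∀ (M : Machine) (w : List ℕ), WellFormed M → IsInput M w →
        (∀ i, Smooth (comp (f M w) i)) ∧
        (∀ t i, Periodic3 (comp (f M w) i t)) ∧
        Computes (compile (M, w)) (f M w) ∧
        (∀ t, T₀ ≤ t → ∀ x, f M w (t + P) x = f M w t x) ∧
        (∀ w', IsInput M w' → ∀ t, T₀ ≤ t → ∀ x, f M w t x = f M w' t x) ∧
        ∃ (u : ℝ → Space → Space) (p : ℝ → Space → ℝ),
          (∀ i, Smooth (comp u i)) ∧ Smooth p ∧
          (∀ T, 0 < T → IsClassical ν (f M w) T u p) ∧
          (∀ T, 0 < T → ∀ v q, IsClassical ν (f M w) T v q →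
            ∀ t ∈ Set.Icc 0 T, ∀ x, v t x = u t x ∧ q t x = p t x) ∧
          (∃ X, IsTrajectory u a X) ∧
          ∀ X, IsTrajectory u a X → ((∃ t, 0 ≤ t ∧ proj (X t) ∈ O) ↔ Halts M w) :=
  main_theorem
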